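import Mathlib

/-!
Existence of derivations of the real numbers with prescribed values on an algebraically independent
family: every family `t : ι → ℝ` algebraically independent over `ℚ`, and any values `u : ι → ℝ`,
admit an additive Leibniz map `D : ℝ → ℝ` with `D (t i) = u i`.
-/

set_option linter.style.haveILetI false

namespace Vale.Agent.P058h4

open TrivSqZeroExt

/-- A field extension in characteristic zero is formally smooth. -/
lemma formallySmooth_of_charZero (F L : Type) [Field F] [Field L] [Algebra F L] [CharZero F] :
    Algebra.FormallySmooth F L := by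
  obtain ⟨s, hs⟩ := exists_isTranscendenceBasis F L
  have h1 : Algebra.IsAlgebraic (IntermediateField.adjoin F (Set.range ((↑) : s → L))) L :=
    hs.isAlgebraic_field
  exact Algebra.FormallySmooth.of_algebraicIndependent_of_isSeparable hs.1

/-- Derivations with prescribed values on an algebraically independent family. -/
theorem exists_derivation {ι : Type} (t : ι → ℝ) (ht : AlgebraicIndependent ℚ t) (u : ι → ℝ) :
    ∃ D : ℝ → ℝ, (∀ x y, D (x + y) = D x + D y) ∧ (∀ x y, D (x * y) = x * D y + y * D x) ∧
      ∀ i, D (t i) = u i := by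
  classical
  -- the base ring and its two actions
  let A := MvPolynomial ι ℚ
  letI algR : Algebra A ℝ := (MvPolynomial.aeval t).toAlgebra
  let e : ι → TrivSqZeroExt ℝ ℝ := fun i => inl (t i) + inr (u i)
  letI algE : Algebra A (TrivSqZeroExt ℝ ℝ) := (MvPolynomial.aeval e).toAlgebra
  have hinj : Function.Injective (algebraMap A ℝ) := ht
  haveI : FaithfulSMul A ℝ := (faithfulSMul_iff_algebraMap_injective A ℝ).2 hinj
  -- formal smoothness of ℝ over A
  let F := FractionRing A
  letI : Algebra F ℝ := FractionRing.liftAlgebra A ℝ
  haveI : IsScalarTower A F ℝ := FractionRing.isScalarTower_liftAlgebra A ℝ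
  haveI : CharZero F := by
    have : CharZero A := inferInstance
    exact IsFractionRing.charZero A
  haveI h1 : Algebra.FormallySmooth F ℝ := formallySmooth_of_charZero F ℝ
  haveI h2 : Algebra.FormallySmooth A F := Algebra.FormallySmooth.of_isLocalization (nonZeroDivisors A)
  haveI h3 : Algebra.FormallySmooth A ℝ := Algebra.FormallySmooth.comp A F ℝ
  -- the first projection of the dual numbers as an A-algebra map
  have hcomp : ∀ p : A, fst (MvPolynomial.aeval e p) = MvPolynomial.aeval t p := by
    intro p
    have : ((fstHom ℚ ℝ ℝ).comp (MvPolynomial.aeval e : A →ₐ[ℚ] TrivSqZeroExt ℝ ℝ)) =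
        (MvPolynomial.aeval t : A →ₐ[ℚ] ℝ) := by
      apply MvPolynomial.algHom_ext
      intro i
      simp [e]
    exact DFunLike.congr_fun this p
  let g : TrivSqZeroExt ℝ ℝ →ₐ[A] ℝ :=
    { (fstHom ℚ ℝ ℝ).toRingHom with
      commutes' := fun p => hcomp p }
  have hg : Function.Surjective g := fun x => ⟨inl x, by simp [g]⟩
  have hnil : IsNilpotent (RingHom.ker g.toRingHom) := by
    refine ⟨2, ?_⟩
    have hle : (RingHom.ker g.toRingHom) ^ 2 ≤ ⊥ := by
      rw [sq]
      refine Ideal.mul_le.2 fun x hx y hy => ?_
      have hx' : fst x = 0 := hx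
      have hy' : fst y = 0 := hy
      have : x * y = 0 := by
        ext <;> simp [hx', hy']
      simp [this]
    exact le_bot_iff.1 hle
  let lift : ℝ →ₐ[A] TrivSqZeroExt ℝ ℝ :=
    Algebra.FormallySmooth.liftOfSurjective (AlgHom.id A ℝ) g hg hnil
  have hlift : ∀ x, fst (lift x) = x := fun x => by
    have := Algebra.FormallySmooth.comp_liftOfSurjective (AlgHom.id A ℝ) g hg hnil
    exact DFunLike.congr_fun this x
  refine ⟨fun x => snd (lift x), ?_, ?_, ?_⟩
  · intro x y
    simp
  · intro x y
    simp only [map_mul, snd_mul, hlift]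
    simp [mul_comm, add_comm]
  · intro i
    have : lift (t i) = e i := by
      have h := lift.commutes (MvPolynomial.X i)
      have h4 : algebraMap A ℝ (MvPolynomial.X i) = t i := by
        show MvPolynomial.aeval t (MvPolynomial.X i) = t i
        simp
      have h5 : algebraMap A (TrivSqZeroExt ℝ ℝ) (MvPolynomial.X i) = e i := by
        show MvPolynomial.aeval e (MvPolynomial.X i) = e i
        simp
      rw [h4, h5] at h
      exact h
    simp [this, e]

end Vale.Agent.P058h4
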