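import Vale.Agent.P058.Defs
import Vale.Agent.P058h4.Der

/-!
A colouring criterion for non-Ramsey sets, and the derivation identity.
-/

set_option linter.style.haveILetI false

namespace Vale.Agent.P058h4

open Finset Vale.Agent.P058

/-- Colour bucket of a real number: the position of `y mod 1` in a grid of `N` pieces. -/
noncomputable def bucket (N : ℕ) (hN : 0 < N) (y : ℝ) : Fin N :=
  ⟨⌊Int.fract y * N⌋₊, by
    have h1 : Int.fract y * N < N := by
      have := Int.fract_lt_one y
      have hN' : (0 : ℝ) < N := by exact_mod_cast hN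
      nlinarith
    exact (Nat.floor_lt (mul_nonneg (Int.fract_nonneg y) (Nat.cast_nonneg N))).2 h1⟩

/-- Equal buckets: the two numbers agree up to an integer and an error below `1/N`. -/
lemma bucket_eq (N : ℕ) (hN : 0 < N) (y z : ℝ) (h : bucket N hN y = bucket N hN z) :
    ∃ m : ℤ, ∃ e : ℝ, |e| < 1 / N ∧ y - z = m + e := by
  have h0 : ⌊Int.fract y * N⌋₊ = ⌊Int.fract z * N⌋₊ := by
    simpa [bucket] using congrArg Fin.val h
  have hN' : (0 : ℝ) < N := by exact_mod_cast hN
  refine ⟨⌊y⌋ - ⌊z⌋, Int.fract y - Int.fract z, ?_, ?_⟩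
  · have a1 := Nat.floor_le (mul_nonneg (Int.fract_nonneg y) hN'.le)
    have a2 := Nat.lt_floor_add_one (Int.fract y * N)
    have b1 := Nat.floor_le (mul_nonneg (Int.fract_nonneg z) hN'.le)
    have b2 := Nat.lt_floor_add_one (Int.fract z * N)
    rw [h0] at a1 a2
    have h1 : (Int.fract y - Int.fract z) * N < 1 := by linarith
    have h2 : -1 < (Int.fract y - Int.fract z) * N := by linarith
    rw [abs_lt]
    constructor
    · have h3 : -(1 / (N : ℝ)) = (-1) / N := by ring
      rw [h3, div_lt_iff₀ hN']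
      exact h2
    · rw [lt_div_iff₀ hN']
      exact h1
  · have := Int.self_sub_floor y
    have := Int.self_sub_floor z
    push_cast
    simp only [Int.fract]
    ring

/-- Criterion: if a functional `G` (in each dimension) satisfies `∑ c i * G (f (p i)) = b` on all
copies of `p`, with `∑ c i = 0` and `b ≠ 0`, then the set is not Ramsey. -/
theorem not_ramsey_of_functional {k n : ℕ} (hn : 0 < n) (p : Fin n → EuclideanSpace ℝ (Fin k))
    (c : Fin n → ℝ) (b : ℝ) (hc : ∑ i, c i = 0) (hb : b ≠ 0)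
    (G : ∀ D : ℕ, EuclideanSpace ℝ (Fin D) → ℝ)
    (hG : ∀ (D : ℕ) (f : EuclideanSpace ℝ (Fin k) → EuclideanSpace ℝ (Fin D)),
      (∀ i j, dist (f (p i)) (f (p j)) = dist (p i) (p j)) →
        ∑ i, c i * G D (f (p i)) = b) :
    ¬ IsRamsey (Set.range p) := by
  intro hR
  have hN : 0 < 2 * n := by omega
  obtain ⟨D, -, hD⟩ := hR ((2 * n) ^ n) (by
    have : 2 * n ≤ (2 * n) ^ n := Nat.le_self_pow (by omega) _
    omega)
  -- the colouring
  let col : EuclideanSpace ℝ (Fin D) → Fin ((2 * n) ^ n) := fun x =>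
    finFunctionFinEquiv (fun i : Fin n => bucket (2 * n) hN (c i * G D x / (2 * b)))
  obtain ⟨f, hf, κ, hκ⟩ := hD col
  have hdist : ∀ i j, dist (f (p i)) (f (p j)) = dist (p i) (p j) := fun i j =>
    hf _ (Set.mem_range_self i) _ (Set.mem_range_self j)
  have hsum := hG D f hdist
  let i0 : Fin n := ⟨0, hn⟩
  -- monochromatic: all buckets agree with those of the first point
  have hbuck : ∀ i, bucket (2 * n) hN (c i * G D (f (p i)) / (2 * b)) =
      bucket (2 * n) hN (c i * G D (f (p i0)) / (2 * b)) := by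
    intro i
    have h1 : col (f (p i)) = col (f (p i0)) := by
      rw [hκ _ (Set.mem_range_self i), hκ _ (Set.mem_range_self i0)]
    have h2 := finFunctionFinEquiv.injective h1
    exact congrFun h2 i
  choose m e he hme using fun i => bucket_eq _ hN _ _ (hbuck i)
  -- sum up
  have hS1 : ∑ i, (c i * G D (f (p i)) / (2 * b)) = 1 / 2 := by
    rw [← Finset.sum_div, hsum]
    field_simp
  have hS2 : ∑ i, (c i * G D (f (p i0)) / (2 * b)) = 0 := by
    rw [← Finset.sum_div, ← Finset.sum_mul, hc]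
    simp
  have hS3 : (1 : ℝ) / 2 - 0 = ∑ i, ((m i : ℝ) + e i) := by
    rw [← hS1, ← hS2, ← Finset.sum_sub_distrib]
    exact Finset.sum_congr rfl fun i _ => hme i
  have hS4 : |∑ i, e i| < 1 / 2 := by
    calc |∑ i, e i| ≤ ∑ i, |e i| := Finset.abs_sum_le_sum_abs _ _
      _ < ∑ _i : Fin n, (1 : ℝ) / ((2 * n : ℕ) : ℝ) :=
          Finset.sum_lt_sum_of_nonempty ⟨i0, Finset.mem_univ _⟩ fun i _ => he i
      _ = 1 / 2 := by
          have hn' : (n : ℝ) ≠ 0 := by
            have : (0 : ℝ) < n := by exact_mod_cast hn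
            exact this.ne'
          simp
          field_simp
  rw [Finset.sum_add_distrib] at hS3
  -- an integer plus a small error cannot be one half
  set M : ℤ := ∑ i, m i with hM
  have hMcast : (∑ i, (m i : ℝ)) = (M : ℝ) := by simp [hM]
  rw [hMcast] at hS3
  rw [abs_lt] at hS4
  have h3 : (0 : ℝ) < M + 1 / 2 + 0 + 1 / 2 - 1 / 2 := by linarith [hS4.1, hS4.2]
  have h4 : (M : ℝ) < 1 / 2 + 1 / 2 := by linarith [hS4.1, hS4.2]
  have h5 : (-1 / 2 : ℝ) < M := by linarith [hS4.1, hS4.2]
  have h6 : (M : ℝ) < 1 := by linarith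
  have h7 : (-1 : ℝ) < M := by linarith
  have h8 : M < 1 := by exact_mod_cast h6
  have h9 : -1 < M := by exact_mod_cast h7
  have h10 : M = 0 := by omega
  rw [h10] at hS3
  push_cast at hS3
  linarith [hS4.2]

end Vale.Agent.P058h4
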