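import Vale.Agent.P058h4.Criterion

/-!
Copies of an affinely spanning configuration are given by orthonormal frames, and the derivation
identity `∑ c i |D (x i)|^2 = b` on all copies.
-/

namespace Vale.Agent.P058h4

open Finset

variable {n k D : ℕ}

/-- Scalar polarisation for zero-sum weights. -/
lemma polar_scalar (y α β : Fin n → ℝ) (hα : ∑ i, α i = 0) (hβ : ∑ i, β i = 0) :
    (∑ i, α i * y i) * (∑ j, β j * y j) =
      -(1 / 2) * ∑ i, ∑ j, α i * β j * (y i - y j) ^ 2 := by
  have h : ∀ i j, α i * β j * (y i - y j) ^ 2 =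
      α i * y i ^ 2 * β j + α i * (β j * y j ^ 2) - 2 * ((α i * y i) * (β j * y j)) := by
    intro i j; ring
  simp only [h, Finset.sum_sub_distrib, Finset.sum_add_distrib]
  have e1 : ∑ i, ∑ j, α i * y i ^ 2 * β j = 0 := by
    simp only [← Finset.mul_sum, hβ, mul_zero, Finset.sum_const_zero]
  have e2 : ∑ i, ∑ j, α i * (β j * y j ^ 2) = 0 := by
    simp only [← Finset.mul_sum, ← Finset.sum_mul, hα, zero_mul]
  have e3 : ∑ i, ∑ j, 2 * ((α i * y i) * (β j * y j)) =
      2 * ((∑ i, α i * y i) * (∑ j, β j * y j)) := by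
    rw [Finset.sum_mul_sum, Finset.mul_sum]
    refine Finset.sum_congr rfl fun i _ => ?_
    rw [Finset.mul_sum]
  rw [e1, e2, e3]
  ring

/-- The Gram formula transported through a distance preserving family. -/
lemma gram (x : Fin n → Fin D → ℝ) (p : Fin n → Fin k → ℝ)
    (h : ∀ i j, ∑ t, (x i t - x j t) ^ 2 = ∑ l, (p i l - p j l) ^ 2)
    (α β : Fin n → ℝ) (hα : ∑ i, α i = 0) (hβ : ∑ i, β i = 0) :
    ∑ t, (∑ i, α i * x i t) * (∑ j, β j * x j t) =
      ∑ l, (∑ i, α i * p i l) * (∑ j, β j * p j l) := by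
  have h1 : ∀ t, (∑ i, α i * x i t) * (∑ j, β j * x j t) =
      -(1 / 2) * ∑ i, ∑ j, α i * β j * (x i t - x j t) ^ 2 :=
    fun t => polar_scalar (fun i => x i t) α β hα hβ
  have h2 : ∀ l, (∑ i, α i * p i l) * (∑ j, β j * p j l) =
      -(1 / 2) * ∑ i, ∑ j, α i * β j * (p i l - p j l) ^ 2 :=
    fun l => polar_scalar (fun i => p i l) α β hα hβ
  simp only [h1, h2, ← Finset.mul_sum]
  congr 1
  have e1 : ∑ t, ∑ i, ∑ j, α i * β j * (x i t - x j t) ^ 2 =
      ∑ i, ∑ j, α i * β j * ∑ t, (x i t - x j t) ^ 2 := by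
    rw [Finset.sum_comm]
    refine Finset.sum_congr rfl fun i _ => ?_
    rw [Finset.sum_comm]
    refine Finset.sum_congr rfl fun j _ => ?_
    rw [Finset.mul_sum]
  have e2 : ∑ l, ∑ i, ∑ j, α i * β j * (p i l - p j l) ^ 2 =
      ∑ i, ∑ j, α i * β j * ∑ l, (p i l - p j l) ^ 2 := by
    rw [Finset.sum_comm]
    refine Finset.sum_congr rfl fun i _ => ?_
    rw [Finset.sum_comm]
    refine Finset.sum_congr rfl fun j _ => ?_
    rw [Finset.mul_sum]
  rw [e1, e2]
  simp only [h]

/-- Affine dependencies transport to copies. -/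
lemma affine_zero (x : Fin n → Fin D → ℝ) (p : Fin n → Fin k → ℝ)
    (h : ∀ i j, ∑ t, (x i t - x j t) ^ 2 = ∑ l, (p i l - p j l) ^ 2)
    (lam : Fin n → ℝ) (h0 : ∑ i, lam i = 0) (h1 : ∀ l, ∑ i, lam i * p i l = 0) (t : Fin D) :
    ∑ i, lam i * x i t = 0 := by
  have hg := gram x p h lam lam h0 h0
  simp only [h1, mul_zero, Finset.sum_const_zero] at hg
  have hnn : ∀ s ∈ (Finset.univ : Finset (Fin D)), 0 ≤ (∑ i, lam i * x i s) * (∑ j, lam j * x j s) :=
    fun s _ => mul_self_nonneg _
  have := (Finset.sum_eq_zero_iff_of_nonneg hnn).1 hg t (Finset.mem_univ _)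
  exact mul_self_eq_zero.1 this

/-- Weights recovering the coefficients of affine functions from their values. -/
lemma exists_weights (p : Fin n → Fin k → ℝ)
    (hinj : ∀ (a : ℝ) (b : Fin k → ℝ), (∀ i, a + ∑ l, b l * p i l = 0) → a = 0 ∧ ∀ l, b l = 0) :
    ∃ (α : Fin n → ℝ) (β : Fin k → Fin n → ℝ),
      (∑ i, α i = 1) ∧ (∀ m, ∑ i, α i * p i m = 0) ∧ (∀ l, ∑ i, β l i = 0) ∧
        ∀ l m, ∑ i, β l i * p i m = if l = m then 1 else 0 := by
  classical
  let T : (Option (Fin k) → ℝ) →ₗ[ℝ] (Fin n → ℝ) :=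
    { toFun := fun v i => v none + ∑ l, v (some l) * p i l
      map_add' := by
        intro v w; funext i
        simp only [Pi.add_apply, add_mul, Finset.sum_add_distrib]
        ring
      map_smul' := by
        intro r v; funext i
        simp only [Pi.smul_apply, smul_eq_mul, RingHom.id_apply]
        rw [mul_add, Finset.mul_sum]
        congr 1
        exact Finset.sum_congr rfl fun l _ => by ring }
  have hker : LinearMap.ker T = ⊥ := by
    rw [LinearMap.ker_eq_bot']
    intro v hv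
    have h1 := hinj (v none) (fun l => v (some l)) (fun i => congrFun hv i)
    funext o
    cases o with
    | none => exact h1.1
    | some l => exact h1.2 l
  obtain ⟨L, hL⟩ := LinearMap.exists_leftInverse_of_injective T hker
  let W : Option (Fin k) → Fin n → ℝ := fun o i => L (Pi.single i 1) o
  have hW : ∀ (v : Option (Fin k) → ℝ) (o : Option (Fin k)),
      ∑ i, W o i * (v none + ∑ l, v (some l) * p i l) = v o := by
    intro v o
    have h1 : L (T v) = v := by
      have := LinearMap.congr_fun hL v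
      simpa using this
    have h2 : T v = ∑ i, (T v i) • (Pi.single i (1 : ℝ) : Fin n → ℝ) := by
      funext j
      simp [Finset.sum_apply, Pi.single_apply]
    have h3 : L (T v) o = ∑ i, T v i * W o i := by
      conv_lhs => rw [h2]
      simp [map_sum, Finset.sum_apply, W]
    rw [← h1]
    conv_rhs => rw [h3]
    rw [h1]
    refine Finset.sum_congr rfl fun i _ => ?_
    show _ = (v none + ∑ l, v (some l) * p i l) * W o i
    ring
  refine ⟨W none, fun l => W (some l), ?_, ?_, ?_, ?_⟩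
  · have := hW (fun o => if o = none then 1 else 0) none
    simpa using this
  · intro m
    have := hW (fun o => if o = some m then 1 else 0) none
    simpa [Finset.sum_ite_eq, ite_mul] using this
  · intro l
    have := hW (fun o => if o = none then 1 else 0) (some l)
    simpa using this
  · intro l m
    have := hW (fun o => if o = some m then 1 else 0) (some l)
    simpa [Finset.sum_ite_eq, ite_mul, Option.some.injEq] using this


/-- Every copy of an affinely spanning configuration is an orthonormal frame image. -/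
lemma exists_frame (x : Fin n → Fin D → ℝ) (p : Fin n → Fin k → ℝ)
    (h : ∀ i j, ∑ t, (x i t - x j t) ^ 2 = ∑ l, (p i l - p j l) ^ 2)
    (hinj : ∀ (a : ℝ) (b : Fin k → ℝ), (∀ i, a + ∑ l, b l * p i l = 0) → a = 0 ∧ ∀ l, b l = 0) :
    ∃ (a : Fin D → ℝ) (B : Fin k → Fin D → ℝ),
      (∀ i t, x i t = a t + ∑ l, p i l * B l t) ∧
        ∀ l l', ∑ t, B l t * B l' t = if l = l' then 1 else 0 := by
  classical
  obtain ⟨α, β, h1, h2, h3, h4⟩ := exists_weights p hinj
  refine ⟨fun t => ∑ i, α i * x i t, fun l t => ∑ i, β l i * x i t, ?_, ?_⟩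
  · intro i t
    let lam : Fin n → ℝ := fun j => (if j = i then 1 else 0) - α j - ∑ l, p i l * β l j
    have hl0 : ∑ j, lam j = 0 := by
      simp only [lam, Finset.sum_sub_distrib, Finset.sum_ite_eq', Finset.mem_univ, if_true, h1]
      rw [Finset.sum_comm]
      simp [← Finset.mul_sum, h3]
    have hl1 : ∀ m, ∑ j, lam j * p j m = 0 := by
      intro m
      simp only [lam, sub_mul, Finset.sum_sub_distrib, ite_mul, one_mul, zero_mul,
        Finset.sum_ite_eq', Finset.mem_univ, if_true, h2, Finset.sum_mul]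
      rw [Finset.sum_comm]
      have e : ∀ l, ∑ j, p i l * β l j * p j m = p i l * (if l = m then 1 else 0) := by
        intro l
        rw [← h4 l m, Finset.mul_sum]
        exact Finset.sum_congr rfl fun j _ => by ring
      simp only [e]
      simp
    have hz := affine_zero x p h lam hl0 hl1 t
    simp only [lam, sub_mul, Finset.sum_sub_distrib, ite_mul, one_mul, zero_mul,
      Finset.sum_ite_eq', Finset.mem_univ, if_true, Finset.sum_mul] at hz
    rw [Finset.sum_comm] at hz
    have e : ∀ l, ∑ j, p i l * β l j * x j t = p i l * ∑ j, β l j * x j t := by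
      intro l
      rw [Finset.mul_sum]
      exact Finset.sum_congr rfl fun j _ => by ring
    simp only [e] at hz
    linarith
  · intro l l'
    have hg := gram x p h (β l) (β l') (h3 l) (h3 l')
    rw [hg]
    simp only [h4]
    by_cases hll : l = l'
    · subst hll
      simp
    · simp [hll]

/-- A derivation of the reals, as a bare additive Leibniz map. -/
structure IsDer (Dv : ℝ → ℝ) : Prop where
  add : ∀ x y, Dv (x + y) = Dv x + Dv y
  mul : ∀ x y, Dv (x * y) = x * Dv y + y * Dv x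

namespace IsDer

variable {Dv : ℝ → ℝ} (hD : IsDer Dv)
include hD

lemma zero : Dv 0 = 0 := by
  have := hD.add 0 0
  simp at this
  linarith

lemma one : Dv 1 = 0 := by
  have := hD.mul 1 1
  simp at this
  linarith

lemma sum {ι : Type} (s : Finset ι) (f : ι → ℝ) : Dv (∑ i ∈ s, f i) = ∑ i ∈ s, Dv (f i) := by
  classical
  induction s using Finset.induction_on with
  | empty => simpa using hD.zero
  | insert a s ha ih => rw [Finset.sum_insert ha, Finset.sum_insert ha, hD.add, ih]

lemma natCast (m : ℕ) : Dv m = 0 := by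
  induction m with
  | zero => simpa using hD.zero
  | succ m ih =>
    push_cast
    rw [hD.add, ih, hD.one]
    ring

lemma pow_two' (x : ℝ) : Dv (x ^ 2) = 2 * x * Dv x := by
  rw [sq, hD.mul]
  ring

lemma neg (x : ℝ) : Dv (-x) = - Dv x := by
  have h := hD.add x (-x)
  simp only [add_neg_cancel, hD.zero] at h
  linarith

lemma sub (x y : ℝ) : Dv (x - y) = Dv x - Dv y := by
  rw [sub_eq_add_neg, hD.add, hD.neg]
  ring

end IsDer

/-- Expansion of the sum of squares of a framed vector. -/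
lemma sq_expand {T : Type} [Fintype T] (U : T → ℝ) (P Q : Fin k → T → ℝ) (a b : Fin k → ℝ) :
    ∑ t, (U t + ∑ l, a l * P l t + ∑ l, b l * Q l t) ^ 2 =
      ∑ t, U t ^ 2 + ∑ l, ∑ l', a l * a l' * (∑ t, P l t * P l' t)
        + ∑ l, ∑ l', b l * b l' * (∑ t, Q l t * Q l' t)
        + 2 * ∑ l, a l * (∑ t, U t * P l t) + 2 * ∑ l, b l * (∑ t, U t * Q l t)
        + 2 * ∑ l, ∑ l', a l * b l' * (∑ t, P l t * Q l' t) := by
  have hpt : ∀ t, (U t + ∑ l, a l * P l t + ∑ l, b l * Q l t) ^ 2 =
      U t ^ 2 + ∑ l, ∑ l', a l * a l' * (P l t * P l' t)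
        + ∑ l, ∑ l', b l * b l' * (Q l t * Q l' t)
        + 2 * ∑ l, a l * (U t * P l t) + 2 * ∑ l, b l * (U t * Q l t)
        + 2 * ∑ l, ∑ l', a l * b l' * (P l t * Q l' t) := by
    intro t
    have h1 : ∑ l, ∑ l', a l * a l' * (P l t * P l' t) = (∑ l, a l * P l t) * (∑ l, a l * P l t) := by
      rw [Finset.sum_mul_sum]
      exact Finset.sum_congr rfl fun l _ => Finset.sum_congr rfl fun l' _ => by ring
    have h2 : ∑ l, ∑ l', b l * b l' * (Q l t * Q l' t) = (∑ l, b l * Q l t) * (∑ l, b l * Q l t) := by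
      rw [Finset.sum_mul_sum]
      exact Finset.sum_congr rfl fun l _ => Finset.sum_congr rfl fun l' _ => by ring
    have h3 : ∑ l, ∑ l', a l * b l' * (P l t * Q l' t) = (∑ l, a l * P l t) * (∑ l, b l * Q l t) := by
      rw [Finset.sum_mul_sum]
      exact Finset.sum_congr rfl fun l _ => Finset.sum_congr rfl fun l' _ => by ring
    have h4 : ∑ l, a l * (U t * P l t) = U t * ∑ l, a l * P l t := by
      rw [Finset.mul_sum]
      exact Finset.sum_congr rfl fun l _ => by ring
    have h5 : ∑ l, b l * (U t * Q l t) = U t * ∑ l, b l * Q l t := by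
      rw [Finset.mul_sum]
      exact Finset.sum_congr rfl fun l _ => by ring
    rw [h1, h2, h3, h4, h5]
    ring
  simp only [hpt, Finset.sum_add_distrib, ← Finset.mul_sum]
  have e1 : ∑ t, ∑ l, ∑ l', a l * a l' * (P l t * P l' t) =
      ∑ l, ∑ l', a l * a l' * (∑ t, P l t * P l' t) := by
    rw [Finset.sum_comm]
    refine Finset.sum_congr rfl fun l _ => ?_
    rw [Finset.sum_comm]
    refine Finset.sum_congr rfl fun l' _ => ?_
    rw [Finset.mul_sum]
  have e2 : ∑ t, ∑ l, ∑ l', b l * b l' * (Q l t * Q l' t) =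
      ∑ l, ∑ l', b l * b l' * (∑ t, Q l t * Q l' t) := by
    rw [Finset.sum_comm]
    refine Finset.sum_congr rfl fun l _ => ?_
    rw [Finset.sum_comm]
    refine Finset.sum_congr rfl fun l' _ => ?_
    rw [Finset.mul_sum]
  have e3 : ∑ t, ∑ l, ∑ l', a l * b l' * (P l t * Q l' t) =
      ∑ l, ∑ l', a l * b l' * (∑ t, P l t * Q l' t) := by
    rw [Finset.sum_comm]
    refine Finset.sum_congr rfl fun l _ => ?_
    rw [Finset.sum_comm]
    refine Finset.sum_congr rfl fun l' _ => ?_
    rw [Finset.mul_sum]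
  have e4 : ∑ t, ∑ l, a l * (U t * P l t) = ∑ l, a l * (∑ t, U t * P l t) := by
    rw [Finset.sum_comm]
    refine Finset.sum_congr rfl fun l _ => ?_
    rw [Finset.mul_sum]
  have e5 : ∑ t, ∑ l, b l * (U t * Q l t) = ∑ l, b l * (∑ t, U t * Q l t) := by
    rw [Finset.sum_comm]
    refine Finset.sum_congr rfl fun l _ => ?_
    rw [Finset.mul_sum]
  rw [e1, e2, e3, e4, e5]

/-- Double sums weighted by `c` collapse to moments. -/
lemma sum_moment (c : Fin n → ℝ) (f g : Fin n → Fin k → ℝ) (M : Fin k → Fin k → ℝ) :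
    ∑ i, c i * ∑ l, ∑ l', f i l * g i l' * M l l' =
      ∑ l, ∑ l', (∑ i, c i * (f i l * g i l')) * M l l' := by
  simp only [Finset.mul_sum, Finset.sum_mul]
  rw [Finset.sum_comm]
  refine Finset.sum_congr rfl fun l _ => ?_
  rw [Finset.sum_comm]
  refine Finset.sum_congr rfl fun l' _ => ?_
  exact Finset.sum_congr rfl fun i _ => by ring

lemma sum_moment1 (c : Fin n → ℝ) (f : Fin n → Fin k → ℝ) (M : Fin k → ℝ) :
    ∑ i, c i * ∑ l, f i l * M l = ∑ l, (∑ i, c i * f i l) * M l := by
  simp only [Finset.mul_sum, Finset.sum_mul]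
  rw [Finset.sum_comm]
  refine Finset.sum_congr rfl fun l _ => ?_
  exact Finset.sum_congr rfl fun i _ => by ring

/-- The derivation identity: on every copy, `∑ c i * |Dv (x i)|^2 = ∑ c i * |Dv (p i)|^2`. -/
theorem der_identity (Dv : ℝ → ℝ) (hD : IsDer Dv) (x : Fin n → Fin D → ℝ) (p : Fin n → Fin k → ℝ)
    (h : ∀ i j, ∑ t, (x i t - x j t) ^ 2 = ∑ l, (p i l - p j l) ^ 2)
    (hinj : ∀ (a : ℝ) (b : Fin k → ℝ), (∀ i, a + ∑ l, b l * p i l = 0) → a = 0 ∧ ∀ l, b l = 0)
    (c : Fin n → ℝ) (hc0 : ∑ i, c i = 0) (hc1 : ∀ l, ∑ i, c i * p i l = 0)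
    (hc2 : ∀ l l', ∑ i, c i * (p i l * p i l') = 0)
    (hq1 : ∀ l, ∑ i, c i * Dv (p i l) = 0)
    (hq2 : ∀ l l', ∑ i, c i * (p i l * Dv (p i l')) = ∑ i, c i * (p i l' * Dv (p i l))) :
    ∑ i, c i * ∑ t, (Dv (x i t)) ^ 2 = ∑ i, c i * ∑ l, (Dv (p i l)) ^ 2 := by
  classical
  obtain ⟨a, B, hx, hB⟩ := exists_frame x p h hinj
  -- differentiate the frame
  have hDx : ∀ i t, Dv (x i t) = Dv (a t) + ∑ l, p i l * Dv (B l t) + ∑ l, Dv (p i l) * B l t := by
    intro i t
    rw [hx, hD.add, hD.sum]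
    simp only [hD.mul]
    rw [Finset.sum_add_distrib, add_assoc]
    congr 2
    exact Finset.sum_congr rfl fun l _ => mul_comm _ _
  let C : Fin k → Fin D → ℝ := fun l t => Dv (B l t)
  let U : Fin D → ℝ := fun t => Dv (a t)
  let q : Fin n → Fin k → ℝ := fun i l => Dv (p i l)
  have hanti : ∀ l l', ∑ t, C l t * B l' t + ∑ t, C l' t * B l t = 0 := by
    intro l l'
    have h1 := congrArg Dv (hB l l')
    rw [hD.sum] at h1
    simp only [hD.mul] at h1
    have h2 : Dv (if l = l' then (1 : ℝ) else 0) = 0 := by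
      split_ifs
      · exact hD.one
      · exact hD.zero
    rw [h2, Finset.sum_add_distrib] at h1
    have e1 : ∑ t, B l t * Dv (B l' t) = ∑ t, C l' t * B l t :=
      Finset.sum_congr rfl fun t _ => mul_comm _ _
    have e2 : ∑ t, B l' t * Dv (B l t) = ∑ t, C l t * B l' t :=
      Finset.sum_congr rfl fun t _ => mul_comm _ _
    rw [e1, e2] at h1
    linarith
  have hexp : ∀ i, ∑ t, (Dv (x i t)) ^ 2 =
      ∑ t, U t ^ 2 + ∑ l, ∑ l', p i l * p i l' * (∑ t, C l t * C l' t)
        + ∑ l, ∑ l', q i l * q i l' * (∑ t, B l t * B l' t)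
        + 2 * ∑ l, p i l * (∑ t, U t * C l t) + 2 * ∑ l, q i l * (∑ t, U t * B l t)
        + 2 * ∑ l, ∑ l', p i l * q i l' * (∑ t, C l t * B l' t) := by
    intro i
    rw [← sq_expand U C B (p i) (q i)]
    exact Finset.sum_congr rfl fun t _ => by rw [hDx]
  have hq2' : ∀ i, ∑ l, ∑ l', q i l * q i l' * (∑ t, B l t * B l' t) = ∑ l, (Dv (p i l)) ^ 2 := by
    intro i
    simp only [hB]
    refine Finset.sum_congr rfl fun l _ => ?_
    simp [q, sq]
  have hS : ∑ i, c i * ∑ l, ∑ l', p i l * q i l' * (∑ t, C l t * B l' t) = 0 := by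
    rw [sum_moment c p q (fun l l' => ∑ t, C l t * B l' t)]
    set E : Fin k → Fin k → ℝ := fun l l' => ∑ i, c i * (p i l * q i l') with hE
    set M : Fin k → Fin k → ℝ := fun l l' => ∑ t, C l t * B l' t with hM
    have hsym : ∀ l l', E l l' = E l' l := fun l l' => hq2 l l'
    have hasym : ∀ l l', M l l' = - M l' l := fun l l' => by
      have := hanti l l'
      simp only [hM]
      linarith
    have h1 : ∑ l, ∑ l', E l l' * M l l' = - ∑ l, ∑ l', E l l' * M l l' := by
      conv_lhs => rw [Finset.sum_comm]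
      rw [← Finset.sum_neg_distrib]
      refine Finset.sum_congr rfl fun l _ => ?_
      rw [← Finset.sum_neg_distrib]
      refine Finset.sum_congr rfl fun l' _ => ?_
      rw [hsym l' l, hasym l' l]
      ring
    linarith
  have h2 : ∑ i, c i * ∑ l, ∑ l', p i l * p i l' * (∑ t, C l t * C l' t) = 0 := by
    rw [sum_moment c p p (fun l l' => ∑ t, C l t * C l' t)]
    simp [hc2]
  have h3 : ∑ i, c i * ∑ l, p i l * (∑ t, U t * C l t) = 0 := by
    rw [sum_moment1 c p (fun l => ∑ t, U t * C l t)]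
    simp [hc1]
  have h4 : ∑ i, c i * ∑ l, q i l * (∑ t, U t * B l t) = 0 := by
    rw [sum_moment1 c q (fun l => ∑ t, U t * B l t)]
    simp [q, hq1]
  have h5 : ∑ i, c i * ∑ t, U t ^ 2 = 0 := by
    rw [← Finset.sum_mul, hc0, zero_mul]
  simp only [hexp, hq2', mul_add, Finset.sum_add_distrib]
  have e1 : ∀ (f : Fin n → ℝ), ∑ i, c i * (2 * f i) = 2 * ∑ i, c i * f i := by
    intro f
    rw [Finset.mul_sum]
    exact Finset.sum_congr rfl fun i _ => by ring
  rw [e1, e1, e1, h2, h3, h4, h5, hS]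
  ring

end Vale.Agent.P058h4
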