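import Vale.Agent.P058h4.Frame

/-!
The general derivation criterion for non-Ramsey sets, and concyclic heptagons with algebraically
independent parameters.
-/

set_option linter.style.haveILetI false

namespace Vale.Agent.P058h4

open Finset Vale.Agent.P058

/-- General criterion: an affinely spanning configuration with a derivation `Dv` of the reals and
weights `c` satisfying the moment conditions and `∑ c i * |Dv (p i)|^2 ≠ 0` is not Ramsey. -/
theorem not_ramsey_of_derivation {k n : ℕ} (hn : 0 < n) (p : Fin n → EuclideanSpace ℝ (Fin k))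
    (hinj : ∀ (a : ℝ) (b : Fin k → ℝ), (∀ i, a + ∑ l, b l * p i l = 0) → a = 0 ∧ ∀ l, b l = 0)
    (Dv : ℝ → ℝ) (hD : IsDer Dv) (c : Fin n → ℝ) (hc0 : ∑ i, c i = 0)
    (hc1 : ∀ l, ∑ i, c i * p i l = 0)
    (hc2 : ∀ l l', ∑ i, c i * (p i l * p i l') = 0)
    (hq1 : ∀ l, ∑ i, c i * Dv (p i l) = 0)
    (hq2 : ∀ l l', ∑ i, c i * (p i l * Dv (p i l')) = ∑ i, c i * (p i l' * Dv (p i l)))
    (hb : ∑ i, c i * ∑ l, (Dv (p i l)) ^ 2 ≠ 0) :
    ¬ IsRamsey (Set.range p) := by
  refine not_ramsey_of_functional hn p c _ hc0 hb (fun D x => ∑ t, (Dv (x t)) ^ 2) ?_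
  intro D f hf
  refine der_identity Dv hD (fun i t => f (p i) t) (fun i l => p i l) ?_ hinj c hc0 hc1 hc2 hq1 hq2
  intro i j
  have h1 := hf i j
  rw [EuclideanSpace.dist_eq, EuclideanSpace.dist_eq] at h1
  have h2 := (Real.sqrt_inj (Finset.sum_nonneg fun _ _ => sq_nonneg _)
    (Finset.sum_nonneg fun _ _ => sq_nonneg _)).1 h1
  simpa [Real.dist_eq, sq_abs] using h2

/-- The point of the unit circle with stereographic parameter `t`. -/
noncomputable def pt (t : ℝ) : EuclideanSpace ℝ (Fin 2) :=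
  !₂[(1 - t ^ 2) / (1 + t ^ 2), 2 * t / (1 + t ^ 2)]

lemma pt_zero (t : ℝ) : pt t 0 = (1 - t ^ 2) / (1 + t ^ 2) := by simp [pt]
lemma pt_one (t : ℝ) : pt t 1 = 2 * t / (1 + t ^ 2) := by simp [pt]

lemma one_add_sq_ne (t : ℝ) : 1 + t ^ 2 ≠ 0 := by positivity

/-- Every `pt t` lies on the unit circle. -/
lemma norm_pt (t : ℝ) : ‖pt t‖ = 1 := by
  have hs := one_add_sq_ne t
  rw [EuclideanSpace.norm_eq, Real.sqrt_eq_one]
  simp only [Fin.sum_univ_two, pt_zero, pt_one, Real.norm_eq_abs, sq_abs]
  field_simp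
  ring

lemma pt_injective : Function.Injective pt := by
  intro s t h
  have h0 : pt s 0 = pt t 0 := by rw [h]
  have h1 : pt s 1 = pt t 1 := by rw [h]
  rw [pt_zero, pt_zero] at h0
  rw [pt_one, pt_one] at h1
  have hs := one_add_sq_ne s
  have ht := one_add_sq_ne t
  field_simp at h0 h1
  have h2 : s ^ 2 = t ^ 2 := by nlinarith
  have h3 : 2 * s * (1 + t ^ 2) = 2 * t * (1 + s ^ 2) := by linarith
  rw [← h2] at h3
  have : (1 + s ^ 2) * (s - t) = 0 := by linarith
  have h4 := (mul_eq_zero.1 this).resolve_left hs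
  linarith

/-- Derivative of the first coordinate. -/
lemma der_pt_zero {Dv : ℝ → ℝ} (hD : IsDer Dv) (t : ℝ) :
    Dv ((1 - t ^ 2) / (1 + t ^ 2)) = -4 * t * Dv t / (1 + t ^ 2) ^ 2 := by
  have hs := one_add_sq_ne t
  have h1 : (1 + t ^ 2) * ((1 - t ^ 2) / (1 + t ^ 2)) = 1 - t ^ 2 := by field_simp
  have h2 := congrArg Dv h1
  rw [hD.mul, hD.add, hD.sub, hD.one, hD.pow_two'] at h2
  field_simp at h2 ⊢
  linarith

/-- Derivative of the second coordinate. -/
lemma der_pt_one {Dv : ℝ → ℝ} (hD : IsDer Dv) (t : ℝ) :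
    Dv (2 * t / (1 + t ^ 2)) = 2 * Dv t * (1 - t ^ 2) / (1 + t ^ 2) ^ 2 := by
  have hs := one_add_sq_ne t
  have h1 : (1 + t ^ 2) * (2 * t / (1 + t ^ 2)) = 2 * t := by field_simp
  have h2 := congrArg Dv h1
  have h3 : Dv (2 * t) = 2 * Dv t := by
    rw [hD.mul]
    have : Dv 2 = 0 := by
      have := hD.natCast 2
      simpa using this
    rw [this]
    ring
  rw [hD.mul, hD.add, hD.one, hD.pow_two', h3] at h2
  field_simp at h2 ⊢
  linarith

/-- Dual Vandermonde weights on distinct nodes. -/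
lemma exists_weights_vandermonde {N : ℕ} (t : Fin N → ℝ)
    (ht : Function.Injective t) :
    ∃ w : Fin N → ℝ, ∀ j : Fin N, ∑ i, w i * t i ^ (j : ℕ) = if (j : ℕ) = N - 1 then 1 else 0 := by
  classical
  let V := Matrix.vandermonde t
  have hdet : V.det ≠ 0 := Matrix.det_vandermonde_ne_zero_iff.2 ht
  let e : Fin N → ℝ := fun j => if (j : ℕ) = N - 1 then 1 else 0
  refine ⟨Matrix.vecMul e V⁻¹, fun j => ?_⟩
  have h1 : Matrix.vecMul (Matrix.vecMul e V⁻¹) V = e := by
    rw [Matrix.vecMul_vecMul, Matrix.nonsing_inv_mul _ (Ne.isUnit hdet), Matrix.vecMul_one]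
  have h2 := congrFun h1 j
  simpa [Matrix.vecMul, dotProduct, V, Matrix.vandermonde_apply, e] using h2

/-- The moment computations for seven distinct parameters and a derivation with
`Dv (t i) = (t i)^3`. -/
theorem heptagon_not_ramsey (t : Fin 7 → ℝ) (ht : Function.Injective t)
    (Dv : ℝ → ℝ) (hD : IsDer Dv) (hDt : ∀ i, Dv (t i) = t i ^ 3) :
    ¬ IsRamsey (Set.range fun i => pt (t i)) := by
  obtain ⟨w, hw⟩ := exists_weights_vandermonde t ht
  have E : ∀ k : ℕ, k ≤ 5 → ∑ i, w i * t i ^ k = 0 := by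
    intro k hk
    have := hw ⟨k, by omega⟩
    simpa [show k ≠ 6 by omega] using this
  have E6 : ∑ i, w i * t i ^ 6 = 1 := by
    have := hw ⟨6, by omega⟩
    simpa using this
  let c : Fin 7 → ℝ := fun i => w i * (1 + t i ^ 2) ^ 2
  have E0 := E 0 (by norm_num)
  have E1 := E 1 (by norm_num)
  have E2 := E 2 (by norm_num)
  have E3 := E 3 (by norm_num)
  have E4 := E 4 (by norm_num)
  have E5 := E 5 (by norm_num)
  have hD0 : ∀ i, Dv (pt (t i) 0) = -4 * t i * t i ^ 3 / (1 + t i ^ 2) ^ 2 := by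
    intro i
    rw [pt_zero, der_pt_zero hD, hDt]
  have hD1 : ∀ i, Dv (pt (t i) 1) = 2 * t i ^ 3 * (1 - t i ^ 2) / (1 + t i ^ 2) ^ 2 := by
    intro i
    rw [pt_one, der_pt_one hD, hDt]
  refine not_ramsey_of_derivation (by norm_num) (fun i => pt (t i)) ?_ Dv hD c ?_ ?_ ?_ ?_ ?_ ?_
  · -- affine spanning: three distinct parameters
    intro a b h
    have key : ∀ i, (a - b 0) * t i ^ 2 + 2 * b 1 * t i + (a + b 0) = 0 := by
      intro i
      have h1 := h i
      simp only [Fin.sum_univ_two, pt_zero, pt_one] at h1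
      have hs := one_add_sq_ne (t i)
      field_simp at h1
      linarith
    have h01 : t 0 ≠ t 1 := fun h => by simpa using ht h
    have h02 : t 0 ≠ t 2 := fun h => by simpa using ht h
    have h12 : t 1 ≠ t 2 := fun h => by simpa using ht h
    have k0 := key 0
    have k1 := key 1
    have k2 := key 2
    have s1 : (a - b 0) * (t 0 + t 1) + 2 * b 1 = 0 := by
      have : (t 0 - t 1) * ((a - b 0) * (t 0 + t 1) + 2 * b 1) = 0 := by linarith
      exact (mul_eq_zero.1 this).resolve_left (sub_ne_zero.2 h01)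
    have s2 : (a - b 0) * (t 0 + t 2) + 2 * b 1 = 0 := by
      have : (t 0 - t 2) * ((a - b 0) * (t 0 + t 2) + 2 * b 1) = 0 := by linarith
      exact (mul_eq_zero.1 this).resolve_left (sub_ne_zero.2 h02)
    have s3 : a - b 0 = 0 := by
      have : (t 1 - t 2) * (a - b 0) = 0 := by linarith
      exact (mul_eq_zero.1 this).resolve_left (sub_ne_zero.2 h12)
    have s4 : b 1 = 0 := by
      rw [s3] at s1
      linarith
    have s5 : a + b 0 = 0 := by
      rw [s3, s4] at k0
      linarith
    have s6 : a = 0 := by linarith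
    refine ⟨s6, Fin.forall_fin_two.2 ⟨by linarith, s4⟩⟩
  · -- sum of weights
    have h : ∀ i, c i = w i * t i ^ 0 + 2 * (w i * t i ^ 2) + w i * t i ^ 4 := by
      intro i
      simp only [c]
      ring
    rw [Finset.sum_congr rfl fun i _ => h i]
    simp only [Finset.sum_add_distrib, ← Finset.mul_sum, E0, E2, E4]
    ring
  · -- first moments
    refine Fin.forall_fin_two.2 ⟨?_, ?_⟩
    · have h : ∀ i, c i * pt (t i) 0 = w i * t i ^ 0 - w i * t i ^ 4 := by
        intro i
        have hs := one_add_sq_ne (t i)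
        simp only [c, pt_zero]
        field_simp
        ring
      rw [Finset.sum_congr rfl fun i _ => h i]
      simp only [Finset.sum_sub_distrib, E0, E4]
      ring
    · have h : ∀ i, c i * pt (t i) 1 = 2 * (w i * t i ^ 1) + 2 * (w i * t i ^ 3) := by
        intro i
        have hs := one_add_sq_ne (t i)
        simp only [c, pt_one]
        field_simp
      rw [Finset.sum_congr rfl fun i _ => h i]
      simp only [Finset.sum_add_distrib, ← Finset.mul_sum, E1, E3]
      ring
  · -- second moments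
    have h00 : ∑ i, c i * (pt (t i) 0 * pt (t i) 0) = 0 := by
      have h : ∀ i, c i * (pt (t i) 0 * pt (t i) 0) =
          w i * t i ^ 0 - 2 * (w i * t i ^ 2) + w i * t i ^ 4 := by
        intro i
        have hs := one_add_sq_ne (t i)
        simp only [c, pt_zero]
        field_simp
        ring
      rw [Finset.sum_congr rfl fun i _ => h i]
      simp only [Finset.sum_add_distrib, Finset.sum_sub_distrib, ← Finset.mul_sum, E0, E2, E4]
      ring
    have h01 : ∑ i, c i * (pt (t i) 0 * pt (t i) 1) = 0 := by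
      have h : ∀ i, c i * (pt (t i) 0 * pt (t i) 1) =
          2 * (w i * t i ^ 1) - 2 * (w i * t i ^ 3) := by
        intro i
        have hs := one_add_sq_ne (t i)
        simp only [c, pt_zero, pt_one]
        field_simp
      rw [Finset.sum_congr rfl fun i _ => h i]
      simp only [Finset.sum_sub_distrib, ← Finset.mul_sum, E1, E3]
      ring
    have h11 : ∑ i, c i * (pt (t i) 1 * pt (t i) 1) = 0 := by
      have h : ∀ i, c i * (pt (t i) 1 * pt (t i) 1) = 4 * (w i * t i ^ 2) := by
        intro i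
        have hs := one_add_sq_ne (t i)
        simp only [c, pt_one]
        field_simp
        ring
      rw [Finset.sum_congr rfl fun i _ => h i]
      simp only [← Finset.mul_sum, E2]
      ring
    refine Fin.forall_fin_two.2 ⟨Fin.forall_fin_two.2 ⟨h00, h01⟩, Fin.forall_fin_two.2 ⟨?_, h11⟩⟩
    rw [← h01]
    exact Finset.sum_congr rfl fun i _ => by ring
  · -- first moments of the derivative
    refine Fin.forall_fin_two.2 ⟨?_, ?_⟩
    · have h : ∀ i, c i * Dv (pt (t i) 0) = -4 * (w i * t i ^ 4) := by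
        intro i
        have hs := one_add_sq_ne (t i)
        simp only [c, hD0]
        field_simp
      rw [Finset.sum_congr rfl fun i _ => h i]
      simp only [← Finset.mul_sum, E4]
      ring
    · have h : ∀ i, c i * Dv (pt (t i) 1) = 2 * (w i * t i ^ 3) - 2 * (w i * t i ^ 5) := by
        intro i
        have hs := one_add_sq_ne (t i)
        simp only [c, hD1]
        field_simp
      rw [Finset.sum_congr rfl fun i _ => h i]
      simp only [Finset.sum_sub_distrib, ← Finset.mul_sum, E3, E5]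
      ring
  · -- symmetry
    have hmain : ∑ i, c i * (pt (t i) 0 * Dv (pt (t i) 1)) =
        ∑ i, c i * (pt (t i) 1 * Dv (pt (t i) 0)) := by
      rw [← sub_eq_zero, ← Finset.sum_sub_distrib]
      have h : ∀ i, c i * (pt (t i) 0 * Dv (pt (t i) 1)) - c i * (pt (t i) 1 * Dv (pt (t i) 0)) =
          2 * (w i * t i ^ 3) + 2 * (w i * t i ^ 5) := by
        intro i
        have hs := one_add_sq_ne (t i)
        rw [hD0 i, hD1 i]
        simp only [c, pt_zero, pt_one]
        field_simp
        ring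
      rw [Finset.sum_congr rfl fun i _ => h i]
      simp only [Finset.sum_add_distrib, ← Finset.mul_sum, E3, E5]
      ring
    exact Fin.forall_fin_two.2 ⟨Fin.forall_fin_two.2 ⟨rfl, hmain⟩,
      Fin.forall_fin_two.2 ⟨hmain.symm, rfl⟩⟩
  · -- the constant
    have h : ∀ i, c i * ∑ l, (Dv (pt (t i) l)) ^ 2 = 4 * (w i * t i ^ 6) := by
      intro i
      have hs := one_add_sq_ne (t i)
      simp only [Fin.sum_univ_two, c, hD0, hD1]
      field_simp
      ring
    rw [Finset.sum_congr rfl fun i _ => h i]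
    simp only [← Finset.mul_sum, E6]
    norm_num

/-- Algebraically independent families of any finite size exist in the reals. -/
lemma exists_algebraicIndependent (N : ℕ) : ∃ t : Fin N → ℝ, AlgebraicIndependent ℚ t := by
  classical
  obtain ⟨s, hs⟩ := exists_isTranscendenceBasis ℚ ℝ
  have hcard : Cardinal.aleph0 ≤ Cardinal.mk s := by
    by_contra hlt
    push Not at hlt
    have h1 : Cardinal.mk ℝ ≤ max (Cardinal.mk (Algebra.adjoin ℚ (Set.range ((↑) : s → ℝ))))
        Cardinal.aleph0 := by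
      haveI : Algebra.IsAlgebraic (Algebra.adjoin ℚ (Set.range ((↑) : s → ℝ))) ℝ := hs.isAlgebraic
      exact Algebra.IsAlgebraic.cardinalMk_le_max _ ℝ
    have h2 : Cardinal.mk (Algebra.adjoin ℚ (Set.range ((↑) : s → ℝ))) =
        Cardinal.mk (MvPolynomial s ℚ) := (Cardinal.mk_congr hs.1.aevalEquiv.toEquiv).symm
    have h3 : Cardinal.mk (MvPolynomial s ℚ) ≤ max (max (Cardinal.mk ℚ) (Cardinal.mk s))
        Cardinal.aleph0 := MvPolynomial.cardinalMk_le_max
    have h4 : Cardinal.mk ℚ ≤ Cardinal.aleph0 := Cardinal.mk_le_aleph0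
    have h5 : Cardinal.mk ℝ ≤ Cardinal.aleph0 := by
      refine h1.trans (max_le ?_ le_rfl)
      rw [h2]
      exact h3.trans (max_le (max_le h4 hlt.le) le_rfl)
    rw [Cardinal.mk_real] at h5
    exact absurd h5 (not_le.2 Cardinal.aleph0_lt_continuum)
  have h7 : Cardinal.mk (Fin N) ≤ Cardinal.mk s := by
    simpa using (Cardinal.natCast_le_aleph0 (n := N)).trans hcard
  obtain ⟨e⟩ := Cardinal.le_def _ _ |>.1 h7
  exact ⟨fun i => (e i : ℝ), hs.1.comp _ e.injective⟩

/-- Main theorem: concyclic heptagons with algebraically independent parameters are not Ramsey. -/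
theorem main_heptagon (t : Fin 7 → ℝ) (ht : AlgebraicIndependent ℚ t) :
    ¬ IsRamsey (Set.range fun i => pt (t i)) := by
  obtain ⟨Dv, h1, h2, h3⟩ := exists_derivation t ht (fun i => t i ^ 3)
  exact heptagon_not_ramsey t ht.injective Dv ⟨h1, h2⟩ h3

end Vale.Agent.P058h4
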