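import Vale.Agent.P058h4.Heptagon

/-!
A new necessary condition for Ramsey sets, generalising sphericity: the jets `(p i, D (p i))` of a
Ramsey set lie on a quadric of a special form, for every derivation `D` of the reals.
-/

namespace Vale.Agent.P058h4

open Finset Vale.Agent.P058

/-- The generators of the obstruction space, indexed by a sum type. -/
noncomputable def gens {n k : ℕ} (p : Fin n → EuclideanSpace ℝ (Fin k)) (Dv : ℝ → ℝ) :
    Unit ⊕ Fin k ⊕ (Fin k × Fin k) ⊕ Fin k ⊕ (Fin k × Fin k) → (Fin n → ℝ)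
  | Sum.inl _ => fun _ => 1
  | Sum.inr (Sum.inl l) => fun i => p i l
  | Sum.inr (Sum.inr (Sum.inl m)) => fun i => p i m.1 * p i m.2
  | Sum.inr (Sum.inr (Sum.inr (Sum.inl l))) => fun i => Dv (p i l)
  | Sum.inr (Sum.inr (Sum.inr (Sum.inr m))) =>
      fun i => p i m.1 * Dv (p i m.2) - p i m.2 * Dv (p i m.1)

/-- Every Ramsey set spanning its space satisfies, for every derivation `Dv` of the reals, a quadric
equation in the jets `(p i, Dv (p i))`. -/
theorem ramsey_jet_quadric {n k : ℕ} (hn : 0 < n) (p : Fin n → EuclideanSpace ℝ (Fin k))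
    (hinj : ∀ (a : ℝ) (b : Fin k → ℝ), (∀ i, a + ∑ l, b l * p i l = 0) → a = 0 ∧ ∀ l, b l = 0)
    (hR : IsRamsey (Set.range p)) (Dv : ℝ → ℝ) (hD : IsDer Dv) :
    ∃ (α : ℝ) (β γ : Fin k → ℝ) (S A : Fin k → Fin k → ℝ), ∀ i,
      ∑ l, (Dv (p i l)) ^ 2 = α + ∑ l, β l * p i l + ∑ l, ∑ l', S l l' * (p i l * p i l') +
        ∑ l, γ l * Dv (p i l) +
        ∑ l, ∑ l', A l l' * (p i l * Dv (p i l') - p i l' * Dv (p i l)) := by
  classical
  let τ : Fin n → ℝ := fun i => ∑ l, (Dv (p i l)) ^ 2
  by_cases hmem : τ ∈ Submodule.span ℝ (Set.range (gens p Dv))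
  · obtain ⟨f, hf⟩ := (Submodule.mem_span_range_iff_exists_fun ℝ).1 hmem
    refine ⟨f (Sum.inl ()), fun l => f (Sum.inr (Sum.inl l)),
      fun l => f (Sum.inr (Sum.inr (Sum.inr (Sum.inl l)))),
      fun l l' => f (Sum.inr (Sum.inr (Sum.inl (l, l')))),
      fun l l' => f (Sum.inr (Sum.inr (Sum.inr (Sum.inr (l, l'))))), fun i => ?_⟩
    have h1 := congrFun hf i
    simp only [Finset.sum_apply, Pi.smul_apply, smul_eq_mul, Fintype.sum_sum_type,
      Fintype.sum_prod_type, Finset.univ_unique, Finset.sum_singleton] at h1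
    simp only [gens] at h1
    show τ i = _
    rw [← h1]
    simp only [Finset.mul_sum, Finset.sum_add_distrib]
    ring
  · -- a separating functional gives weights
    obtain ⟨φ, hφ, hφ0⟩ := Submodule.exists_le_ker_of_notMem hmem
    let c : Fin n → ℝ := fun i => φ (Pi.single i 1)
    have hφc : ∀ v : Fin n → ℝ, φ v = ∑ i, c i * v i := by
      intro v
      have h2 : v = ∑ i, v i • (Pi.single i (1 : ℝ) : Fin n → ℝ) := by
        funext j
        simp [Finset.sum_apply, Pi.single_apply]
      conv_lhs => rw [h2]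
      simp only [map_sum, map_smul, smul_eq_mul]
      exact Finset.sum_congr rfl fun i _ => mul_comm _ _
    have hker : ∀ g, φ (gens p Dv g) = 0 := fun g =>
      hφ0 (Submodule.subset_span ⟨g, rfl⟩)
    refine absurd hR (not_ramsey_of_derivation hn p hinj Dv hD c ?_ ?_ ?_ ?_ ?_ ?_)
    · have := hker (Sum.inl ())
      rw [hφc] at this
      simpa [gens] using this
    · intro l
      have := hker (Sum.inr (Sum.inl l))
      rw [hφc] at this
      simpa [gens] using this
    · intro l l'
      have := hker (Sum.inr (Sum.inr (Sum.inl (l, l'))))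
      rw [hφc] at this
      simpa [gens] using this
    · intro l
      have := hker (Sum.inr (Sum.inr (Sum.inr (Sum.inl l))))
      rw [hφc] at this
      simpa [gens] using this
    · intro l l'
      have := hker (Sum.inr (Sum.inr (Sum.inr (Sum.inr (l, l')))))
      rw [hφc] at this
      simp only [gens, mul_sub, Finset.sum_sub_distrib] at this
      linarith
    · intro h0
      apply hφ
      rw [hφc]
      exact h0

end Vale.Agent.P058h4
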